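import Mathlib

/-!
# P036 (Heilbronn's triangle problem): the area of a triangle
-/

namespace Vale.Agent.H51.Heil

/-- `Area(pqr) = |det(q - p, r - p)| / 2`, the area of the triangle with corners `p`, `q`, `r`. -/
noncomputable def triArea (p q r : ℝ × ℝ) : ℝ :=
  |(q.1 - p.1) * (r.2 - p.2) - (q.2 - p.2) * (r.1 - p.1)| / 2

end Vale.Agent.H51.Heil
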