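import Mathlib
import Vale.Agent.H51.Heil.Area

/-!
# P036 (Heilbronn's triangle problem): point sets in convex position

Definitions internal to the proof.  The area function `triArea` of the problem file is in
`Area.lean`.
-/

namespace Vale.Agent.H51.Heil

/-- `det(u, v) = u.1 * v.2 - u.2 * v.1`. -/
def det2 (u v : ℝ × ℝ) : ℝ := u.1 * v.2 - u.2 * v.1

/-- The point lies in the unit square. -/
def InSq (p : ℝ × ℝ) : Prop := 0 ≤ p.1 ∧ p.1 ≤ 1 ∧ 0 ≤ p.2 ∧ p.2 ≤ 1

/-- Strict lexicographic order on points: first coordinate first. -/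
def LexLt (p q : ℝ × ℝ) : Prop := p.1 < q.1 ∨ (p.1 = q.1 ∧ p.2 < q.2)

/-- A step vector is lex-positive. -/
def LexPos (u : ℝ × ℝ) : Prop := 0 < u.1 ∨ (u.1 = 0 ∧ 0 < u.2)

/-- Length parameter of a step: `max w |h|`. -/
noncomputable def stepA (u : ℝ × ℝ) : ℝ := max u.1 |u.2|

/-- Slope parameter of a step, in `[-1, 1]`: `h / w` for flat steps (`|h| ≤ w`), `- w / h` for
steep rising steps, `w / (- h)` for steep falling steps. -/
noncomputable def stepT (u : ℝ × ℝ) : ℝ :=
  if |u.2| ≤ u.1 then u.2 / u.1 else if 0 < u.2 then -(u.1 / u.2) else u.1 / (-u.2)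

/-- Type of a step: `0` steep falling (`h < - w`), `1` flat (`|h| ≤ w`), `2` steep rising
(`w < h`). -/
noncomputable def stepTy (u : ℝ × ℝ) : ℕ :=
  if |u.2| ≤ u.1 then 1 else if 0 < u.2 then 2 else 0

end Vale.Agent.H51.Heil
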