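import Mathlib
import Vale.Agent.H51.Heil.Defs

/-!
# P036, convex position: elementary facts about `triArea`, `det2`, `LexLt`
-/

namespace Vale.Agent.H51.Heil

theorem triArea_eq_det2' (p q r : ℝ × ℝ) : triArea p q r = |det2 (q - p) (r - p)| / 2 := by
  simp [triArea, det2]

theorem det2_sub_eq (p q r : ℝ × ℝ) : det2 (q - p) (r - q) = det2 (q - p) (r - p) := by
  simp only [det2, Prod.fst_sub, Prod.snd_sub]
  ring

theorem triArea_eq_det2 (p q r : ℝ × ℝ) : triArea p q r = |det2 (q - p) (r - q)| / 2 := by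
  rw [det2_sub_eq, triArea_eq_det2']

theorem lexLt_irrefl (p : ℝ × ℝ) : ¬ LexLt p p := by
  intro h
  rcases h with h | ⟨_, h⟩ <;> exact lt_irrefl _ h

theorem lexLt_trans {p q r : ℝ × ℝ} (h1 : LexLt p q) (h2 : LexLt q r) : LexLt p r := by
  rcases h1 with h1 | ⟨h1, h1'⟩ <;> rcases h2 with h2 | ⟨h2, h2'⟩
  · exact Or.inl (lt_trans h1 h2)
  · exact Or.inl (h2 ▸ h1)
  · exact Or.inl (h1 ▸ h2)
  · exact Or.inr ⟨h1.trans h2, lt_trans h1' h2'⟩

theorem lexLt_ne {p q : ℝ × ℝ} (h : LexLt p q) : p ≠ q := by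
  rintro rfl
  exact lexLt_irrefl p h

theorem lexLt_fst_le {p q : ℝ × ℝ} (h : LexLt p q) : p.1 ≤ q.1 := by
  rcases h with h | ⟨h, _⟩
  · exact h.le
  · exact h.le

theorem lexPos_sub {p q : ℝ × ℝ} (h : LexLt p q) : LexPos (q - p) := by
  rcases h with h | ⟨h, h'⟩
  · exact Or.inl (by simpa using h)
  · exact Or.inr ⟨by simp [h], by simpa using h'⟩

/-- Any triangle with vertices in the unit square has `triArea ≤ 1`. -/
theorem triArea_le_one (p q r : ℝ × ℝ) (hp : InSq p) (hq : InSq q) (hr : InSq r) :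
    triArea p q r ≤ 1 := by
  obtain ⟨hp1, hp2, hp3, hp4⟩ := hp
  obtain ⟨hq1, hq2, hq3, hq4⟩ := hq
  obtain ⟨hr1, hr2, hr3, hr4⟩ := hr
  unfold triArea
  have h1 : |(q.1 - p.1) * (r.2 - p.2)| ≤ 1 := by
    rw [abs_mul]
    have ha : |q.1 - p.1| ≤ 1 := abs_le.mpr ⟨by linarith, by linarith⟩
    have hb : |r.2 - p.2| ≤ 1 := abs_le.mpr ⟨by linarith, by linarith⟩
    calc |q.1 - p.1| * |r.2 - p.2| ≤ 1 * 1 :=
          mul_le_mul ha hb (abs_nonneg _) (by norm_num)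
      _ = 1 := by norm_num
  have h2 : |(q.2 - p.2) * (r.1 - p.1)| ≤ 1 := by
    rw [abs_mul]
    have ha : |q.2 - p.2| ≤ 1 := abs_le.mpr ⟨by linarith, by linarith⟩
    have hb : |r.1 - p.1| ≤ 1 := abs_le.mpr ⟨by linarith, by linarith⟩
    calc |q.2 - p.2| * |r.1 - p.1| ≤ 1 * 1 :=
          mul_le_mul ha hb (abs_nonneg _) (by norm_num)
      _ = 1 := by norm_num
  have h3 : |(q.1 - p.1) * (r.2 - p.2) - (q.2 - p.2) * (r.1 - p.1)| ≤ 2 := by
    calc |(q.1 - p.1) * (r.2 - p.2) - (q.2 - p.2) * (r.1 - p.1)|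
        ≤ |(q.1 - p.1) * (r.2 - p.2)| + |(q.2 - p.2) * (r.1 - p.1)| := abs_sub _ _
      _ ≤ 1 + 1 := add_le_add h1 h2
      _ = 2 := by norm_num
  linarith

end Vale.Agent.H51.Heil
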