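import Mathlib
import Vale.Agent.H51.Heil.Defs
import Vale.Agent.H51.Heil.Basic

/-!
# P036, convex position: lexicographic enumeration of a finite point set (ROW HL-6)

Sort the points by the lexicographic order (for instance with `Finset.sort` or
`Finset.orderEmbOfFin` for the linear order on `ℝ ×ₗ ℝ`, or by induction on the cardinality taking
out a `LexLt`-least point each time; `LexLt` is a strict total order on `ℝ × ℝ`).
-/

namespace Vale.Agent.H51.Heil

theorem exists_lex_enum (S : Finset (ℝ × ℝ)) :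
    ∃ f : ℕ → ℝ × ℝ, (∀ i < S.card, f i ∈ S) ∧
      (∀ i j, i < j → j < S.card → LexLt (f i) (f j)) ∧
      (∀ p ∈ S, ∃ i < S.card, f i = p) := by
  classical
  let S' : Finset (ℝ ×ₗ ℝ) := S.map ⟨toLex, toLex.injective⟩
  have hcard : S'.card = S.card := Finset.card_map _
  let e := S'.orderEmbOfFin hcard
  have hmem : ∀ x : ℝ ×ₗ ℝ, x ∈ S' ↔ ofLex x ∈ S := by
    intro x
    simp only [S', Finset.mem_map, Function.Embedding.coeFn_mk]
    constructor
    · rintro ⟨p, hp, rfl⟩
      simpa using hp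
    · intro h
      exact ⟨ofLex x, h, by simp⟩
  refine ⟨fun i => if h : i < S.card then ofLex (e ⟨i, h⟩) else 0, ?_, ?_, ?_⟩
  · intro i hi
    simp only [hi, dif_pos]
    exact (hmem _).mp (S'.orderEmbOfFin_mem hcard ⟨i, hi⟩)
  · intro i j hij hj
    have hi : i < S.card := lt_trans hij hj
    simp only [hi, hj, dif_pos]
    have hlt : e ⟨i, hi⟩ < e ⟨j, hj⟩ := e.strictMono (by simpa using hij)
    have h2 := Prod.Lex.toLex_lt_toLex (x := ofLex (e ⟨i, hi⟩)) (y := ofLex (e ⟨j, hj⟩))
    simp only [toLex_ofLex] at h2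
    exact h2.mp hlt
  · intro p hp
    have hp' : toLex p ∈ S' := (hmem _).mpr (by simpa using hp)
    have hr := S'.range_orderEmbOfFin hcard
    have hp2 : toLex p ∈ Set.range (S'.orderEmbOfFin hcard) := by
      rw [hr]
      exact hp'
    obtain ⟨⟨i, hi⟩, hi2⟩ := hp2
    refine ⟨i, hi, ?_⟩
    simp only [hi, dif_pos]
    change ofLex (S'.orderEmbOfFin hcard ⟨i, hi⟩) = p
    rw [hi2]
    simp

/-- Least and greatest point of a finite set with at least two points. -/
theorem exists_lex_min_max (P : Finset (ℝ × ℝ)) (hP : 2 ≤ P.card) :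
    ∃ a ∈ P, ∃ z ∈ P, LexLt a z ∧ (∀ p ∈ P, p = a ∨ LexLt a p) ∧
      (∀ p ∈ P, p = z ∨ LexLt p z) := by
  obtain ⟨f, hf1, hf2, hf3⟩ := exists_lex_enum P
  refine ⟨f 0, hf1 0 (by omega), f (P.card - 1), hf1 _ (by omega),
    hf2 0 (P.card - 1) (by omega) (by omega), ?_, ?_⟩
  · intro p hp
    obtain ⟨i, hi, rfl⟩ := hf3 p hp
    by_cases h0 : i = 0
    · left
      rw [h0]
    · right
      exact hf2 0 i (by omega) hi
  · intro p hp
    obtain ⟨i, hi, rfl⟩ := hf3 p hp
    by_cases h0 : i = P.card - 1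
    · left
      rw [h0]
    · right
      exact hf2 i (P.card - 1) (by omega) (by omega)

end Vale.Agent.H51.Heil
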