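import Mathlib
import Vale.Agent.H51.Heil.Defs
import Vale.Agent.H51.Heil.Basic
import Vale.Agent.H51.Heil.LexEnum

/-!
# P036, convex position: the chain through one side (ROW HL-8)

`a` is the lex-least and `z` the lex-greatest point of `P`, and `X ⊆ P` avoids both.  With the
enumeration `f` of `X` (`exists_lex_enum`) put `q 0 = a`, `q i = f (i - 1)` for `1 ≤ i ≤ X.card`
and `q i = z` for `i > X.card`.
-/

namespace Vale.Agent.H51.Heil

theorem exists_chain_of_side (P X : Finset (ℝ × ℝ)) (a z : ℝ × ℝ)
    (hX : X ⊆ P) (haX : a ∉ X) (hzX : z ∉ X)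
    (hamin : ∀ p ∈ P, p = a ∨ LexLt a p) (hzmax : ∀ p ∈ P, p = z ∨ LexLt p z)
    (haz : LexLt a z) :
    ∃ q : ℕ → ℝ × ℝ, q 0 = a ∧ q (X.card + 1) = z ∧
      (∀ i, 1 ≤ i → i ≤ X.card → q i ∈ X) ∧
      (∀ i < X.card + 1, LexLt (q i) (q (i + 1))) := by
  obtain ⟨f, hf1, hf2, -⟩ := exists_lex_enum X
  refine ⟨fun i => if i = 0 then a else if i ≤ X.card then f (i - 1) else z, by simp, by simp,
    ?_, ?_⟩
  · intro i hi1 hi2
    have h0 : i ≠ 0 := by omega
    simp only [h0, if_false, hi2, if_true]
    exact hf1 _ (by omega)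
  · intro i hi
    by_cases h0 : i = 0
    · subst h0
      by_cases hc : X.card = 0
      · simp [hc, haz]
      · have h1 : (1 : ℕ) ≤ X.card := by omega
        simp only [if_true, zero_add, one_ne_zero, if_false, h1, Nat.sub_self]
        have hm : f 0 ∈ X := hf1 0 (by omega)
        rcases hamin _ (hX hm) with h | h
        · exact absurd (h ▸ hm) haX
        · exact h
    · have h1 : i + 1 ≠ 0 := by omega
      have h2 : i ≤ X.card := by omega
      simp only [h0, if_false, h2, if_true, h1, Nat.add_sub_cancel]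
      by_cases h3 : i + 1 ≤ X.card
      · simp only [h3, if_true]
        have := hf2 (i - 1) i (by omega) (by omega)
        exact this
      · simp only [h3, if_false]
        have hm : f (i - 1) ∈ X := hf1 _ (by omega)
        rcases hzmax _ (hX hm) with h | h
        · exact absurd (h ▸ hm) hzX
        · exact h

end Vale.Agent.H51.Heil
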