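import Mathlib
import Vale.Agent.H51.Heil.Defs
import Vale.Agent.H51.Heil.Basic

/-!
# P036, convex position: the turn lemma (ROW HL-7)

`c1 < c2 < c3` and `a ≤ c1`, `c3 ≤ z` in the lexicographic order, so
`c1.1 ≤ c2.1 ≤ c3.1` and `a.1 ≤ c2.1 ≤ z.1`.
First statement: `det2 (c2 - c1) (c3 - c2) < 0` excludes `c1.1 = c3.1` (the determinant would be
`0`), and for `c1.1 < c3.1` it says that the point `S = c1 + l • (c3 - c1)`,
`l = (c2.1 - c1.1) / (c3.1 - c1.1)`, of the segment `[c1, c3]` has `S.1 = c2.1`, `S.2 < c2.2`.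
`det2 (z - a) (c2 - a) < 0` excludes `a.1 = z.1` and says that the point `T = a + m • (z - a)`,
`m = (c2.1 - a.1) / (z.1 - a.1)`, of `[a, z]` has `T.1 = c2.1`, `T.2 > c2.2`.  So `c2` is a convex
combination of `S` and `T`, hence of `c1, c3, a, z`.  The second statement is the mirror image
(`S` above, `T` below).
-/

namespace Vale.Agent.H51.Heil

theorem hl7_aux (a z c1 c2 c3 : ℝ × ℝ) (l m t : ℝ) (hl0 : 0 ≤ l) (hl1 : l ≤ 1)
    (hm0 : 0 ≤ m) (hm1 : m ≤ 1) (ht0 : 0 ≤ t) (ht1 : t ≤ 1)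
    (h1 : (1 - t) * ((1 - l) * c1.1 + l * c3.1) + t * ((1 - m) * a.1 + m * z.1) = c2.1)
    (h2 : (1 - t) * ((1 - l) * c1.2 + l * c3.2) + t * ((1 - m) * a.2 + m * z.2) = c2.2) :
    c2 ∈ convexHull ℝ ({c1, c3, a, z} : Set (ℝ × ℝ)) := by
  have hS : (1 - l) • c1 + l • c3 ∈ convexHull ℝ ({c1, c3, a, z} : Set (ℝ × ℝ)) := by
    refine segment_subset_convexHull
      (show c1 ∈ ({c1, c3, a, z} : Set (ℝ × ℝ)) by simp)
      (show c3 ∈ ({c1, c3, a, z} : Set (ℝ × ℝ)) by simp) ?_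
    exact ⟨1 - l, l, by linarith, hl0, by ring, rfl⟩
  have hT : (1 - m) • a + m • z ∈ convexHull ℝ ({c1, c3, a, z} : Set (ℝ × ℝ)) := by
    refine segment_subset_convexHull
      (show a ∈ ({c1, c3, a, z} : Set (ℝ × ℝ)) by simp)
      (show z ∈ ({c1, c3, a, z} : Set (ℝ × ℝ)) by simp) ?_
    exact ⟨1 - m, m, by linarith, hm0, by ring, rfl⟩
  refine (convex_convexHull ℝ _).segment_subset hS hT ?_
  refine ⟨1 - t, t, by linarith, ht0, by ring, ?_⟩
  apply Prod.ext
  · simp only [Prod.fst_add, Prod.smul_fst, smul_eq_mul]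
    exact h1
  · simp only [Prod.snd_add, Prod.smul_snd, smul_eq_mul]
    exact h2

theorem hl7_fst (a z c1 c2 c3 : ℝ × ℝ)
    (h12 : LexLt c1 c2) (h23 : LexLt c2 c3)
    (ha : a = c1 ∨ LexLt a c1) (hz : c3 = z ∨ LexLt c3 z) :
    c1.1 ≤ c2.1 ∧ c2.1 ≤ c3.1 ∧ a.1 ≤ c2.1 ∧ c2.1 ≤ z.1 := by
  have e1 := lexLt_fst_le h12
  have e2 := lexLt_fst_le h23
  have e3 : a.1 ≤ c1.1 := by
    rcases ha with h | h
    · rw [h]
    · exact lexLt_fst_le h
  have e4 : c3.1 ≤ z.1 := by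
    rcases hz with h | h
    · rw [h]
    · exact lexLt_fst_le h
  exact ⟨e1, e2, e3.trans e1, e2.trans e4⟩

/-- Common core: `eps = 1` for the first statement, `eps = -1` for the second. -/
theorem hl7_core (a z c1 c2 c3 : ℝ × ℝ)
    (e1 : c1.1 ≤ c2.1) (e2 : c2.1 ≤ c3.1) (e3 : a.1 ≤ c2.1) (e4 : c2.1 ≤ z.1)
    (hw : 0 < c3.1 - c1.1) (hv : 0 < z.1 - a.1)
    (hcase : (det2 (z - a) (c2 - a) < 0 ∧ det2 (c2 - c1) (c3 - c2) < 0) ∨
      (0 < det2 (z - a) (c2 - a) ∧ 0 < det2 (c2 - c1) (c3 - c2))) :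
    c2 ∈ convexHull ℝ ({c1, c3, a, z} : Set (ℝ × ℝ)) := by
  set w := c3.1 - c1.1 with hwdef
  set v := z.1 - a.1 with hvdef
  set l := (c2.1 - c1.1) / w with hldef
  set m := (c2.1 - a.1) / v with hmdef
  have hlw : l * w = c2.1 - c1.1 := by
    rw [hldef]
    field_simp
  have hmv : m * v = c2.1 - a.1 := by
    rw [hmdef]
    field_simp
  have hl0 : 0 ≤ l := div_nonneg (by linarith) hw.le
  have hl1 : l ≤ 1 := by
    rw [hldef, div_le_one hw]
    linarith
  have hm0 : 0 ≤ m := div_nonneg (by linarith) hv.le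
  have hm1 : m ≤ 1 := by
    rw [hmdef, div_le_one hv]
    linarith
  set sy := (1 - l) * c1.2 + l * c3.2 with hsy
  set ty := (1 - m) * a.2 + m * z.2 with hty
  have hD : w * (c2.2 - sy) = -det2 (c2 - c1) (c3 - c2) := by
    simp only [det2, Prod.fst_sub, Prod.snd_sub, hsy, hwdef]
    linear_combination (c1.2 - c3.2) * hlw
  have hs : v * (ty - c2.2) = -det2 (z - a) (c2 - a) := by
    simp only [det2, Prod.fst_sub, Prod.snd_sub, hty, hvdef]
    linear_combination (z.2 - a.2) * hmv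
  have hne : ty - sy ≠ 0 := by
    rcases hcase with ⟨h1, h2⟩ | ⟨h1, h2⟩
    · have p1 : 0 < c2.2 - sy := by
        by_contra hcon
        have := mul_nonpos_of_nonneg_of_nonpos hw.le (not_lt.mp hcon)
        linarith
      have p2 : 0 < ty - c2.2 := by
        by_contra hcon
        have := mul_nonpos_of_nonneg_of_nonpos hv.le (not_lt.mp hcon)
        linarith
      linarith
    · have p1 : c2.2 - sy < 0 := by
        by_contra hcon
        have := mul_nonneg hw.le (not_lt.mp hcon)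
        linarith
      have p2 : ty - c2.2 < 0 := by
        by_contra hcon
        have := mul_nonneg hv.le (not_lt.mp hcon)
        linarith
      linarith
  set t := (c2.2 - sy) / (ty - sy) with htdef
  have htd : t * (ty - sy) = c2.2 - sy := by
    rw [htdef]
    field_simp
  have ht01 : 0 ≤ t ∧ t ≤ 1 := by
    rcases hcase with ⟨h1, h2⟩ | ⟨h1, h2⟩
    · have p1 : 0 < c2.2 - sy := by
        by_contra hcon
        have := mul_nonpos_of_nonneg_of_nonpos hw.le (not_lt.mp hcon)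
        linarith
      have p2 : 0 < ty - c2.2 := by
        by_contra hcon
        have := mul_nonpos_of_nonneg_of_nonpos hv.le (not_lt.mp hcon)
        linarith
      have p3 : 0 < ty - sy := by linarith
      refine ⟨div_nonneg p1.le p3.le, ?_⟩
      rw [htdef, div_le_one p3]
      linarith
    · have p1 : c2.2 - sy < 0 := by
        by_contra hcon
        have := mul_nonneg hw.le (not_lt.mp hcon)
        linarith
      have p2 : ty - c2.2 < 0 := by
        by_contra hcon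
        have := mul_nonneg hv.le (not_lt.mp hcon)
        linarith
      have p3 : ty - sy < 0 := by linarith
      refine ⟨div_nonneg_of_nonpos p1.le p3.le, ?_⟩
      rw [htdef, div_le_one_of_neg p3]
      linarith
  refine hl7_aux a z c1 c2 c3 l m t hl0 hl1 hm0 hm1 ht01.1 ht01.2 ?_ ?_
  · linear_combination (1 - t) * hlw + t * hmv
  · linear_combination htd

theorem mem_hull_of_right_turn_below (a z c1 c2 c3 : ℝ × ℝ)
    (h12 : LexLt c1 c2) (h23 : LexLt c2 c3)
    (ha : a = c1 ∨ LexLt a c1) (hz : c3 = z ∨ LexLt c3 z)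
    (hs : det2 (z - a) (c2 - a) < 0)
    (hD : det2 (c2 - c1) (c3 - c2) < 0) :
    c2 ∈ convexHull ℝ ({c1, c3, a, z} : Set (ℝ × ℝ)) := by
  obtain ⟨e1, e2, e3, e4⟩ := hl7_fst a z c1 c2 c3 h12 h23 ha hz
  have hw : 0 < c3.1 - c1.1 := by
    by_contra hcon
    have x1 : c2.1 - c1.1 = 0 := by linarith
    have x2 : c3.1 - c2.1 = 0 := by linarith
    simp only [det2, Prod.fst_sub, Prod.snd_sub, x1, x2] at hD
    simp at hD
  have hv : 0 < z.1 - a.1 := by
    by_contra hcon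
    have x1 : z.1 - a.1 = 0 := by linarith
    have x2 : c2.1 - a.1 = 0 := by linarith
    simp only [det2, Prod.fst_sub, Prod.snd_sub, x1, x2] at hs
    simp at hs
  exact hl7_core a z c1 c2 c3 e1 e2 e3 e4 hw hv (Or.inl ⟨hs, hD⟩)

theorem mem_hull_of_left_turn_above (a z c1 c2 c3 : ℝ × ℝ)
    (h12 : LexLt c1 c2) (h23 : LexLt c2 c3)
    (ha : a = c1 ∨ LexLt a c1) (hz : c3 = z ∨ LexLt c3 z)
    (hs : 0 < det2 (z - a) (c2 - a))
    (hD : 0 < det2 (c2 - c1) (c3 - c2)) :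
    c2 ∈ convexHull ℝ ({c1, c3, a, z} : Set (ℝ × ℝ)) := by
  obtain ⟨e1, e2, e3, e4⟩ := hl7_fst a z c1 c2 c3 h12 h23 ha hz
  have hw : 0 < c3.1 - c1.1 := by
    by_contra hcon
    have x1 : c2.1 - c1.1 = 0 := by linarith
    have x2 : c3.1 - c2.1 = 0 := by linarith
    simp only [det2, Prod.fst_sub, Prod.snd_sub, x1, x2] at hD
    simp at hD
  have hv : 0 < z.1 - a.1 := by
    by_contra hcon
    have x1 : z.1 - a.1 = 0 := by linarith
    have x2 : c2.1 - a.1 = 0 := by linarith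
    simp only [det2, Prod.fst_sub, Prod.snd_sub, x1, x2] at hs
    simp at hs
  exact hl7_core a z c1 c2 c3 e1 e2 e3 e4 hw hv (Or.inr ⟨hs, hD⟩)

end Vale.Agent.H51.Heil
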