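import Mathlib
import Vale.Agent.H51.Heil.Defs
import Vale.Agent.H51.Heil.Basic
import Vale.Agent.H51.Heil.LexEnum
import Vale.Agent.H51.Heil.Sides
import Vale.Agent.H51.Heil.Turn

/-!
# P036, convex position: a long chain with all turns in one direction

`P` in convex position with no three points on a line.  `a`, `z` are the lex-least and
lex-greatest points; the other points lie strictly on one side of the line `a z`.  The larger
side `X`, sorted, together with `a` and `z` is a chain of `X.card + 2` points of `P`, and all its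
turns are to the left (`X` below the line) or all to the right (`X` above the line): a turn of the
wrong direction at `c2` would put `c2` into the convex hull of its two neighbours, `a` and `z`
(`Turn.lean`).
-/

namespace Vale.Agent.H51.Heil

theorem chain_mem (P X : Finset (ℝ × ℝ)) (a z : ℝ × ℝ) (q : ℕ → ℝ × ℝ)
    (hX : X ⊆ P) (ha : a ∈ P) (hz : z ∈ P)
    (hq0 : q 0 = a) (hqM : q (X.card + 1) = z)
    (hqX : ∀ i, 1 ≤ i → i ≤ X.card → q i ∈ X) :
    ∀ i ≤ X.card + 1, q i ∈ P := by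
  intro i hi
  by_cases h0 : i = 0
  · subst h0
    rw [hq0]
    exact ha
  · by_cases h1 : i = X.card + 1
    · subst h1
      rw [hqM]
      exact hz
    · exact hX (hqX i (by omega) (by omega))

theorem chain_turn_left (P X : Finset (ℝ × ℝ)) (a z : ℝ × ℝ) (q : ℕ → ℝ × ℝ)
    (hconv : ∀ p ∈ P, p ∉ convexHull ℝ (↑(P.erase p) : Set (ℝ × ℝ)))
    (hnc : ∀ p ∈ P, ∀ q ∈ P, ∀ r ∈ P, p ≠ q → p ≠ r → q ≠ r → det2 (q - p) (r - p) ≠ 0)
    (hX : X ⊆ P) (ha : a ∈ P) (hz : z ∈ P) (haX : a ∉ X) (hzX : z ∉ X)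
    (hamin : ∀ p ∈ P, p = a ∨ LexLt a p) (hzmax : ∀ p ∈ P, p = z ∨ LexLt p z)
    (hq0 : q 0 = a) (hqM : q (X.card + 1) = z)
    (hqX : ∀ i, 1 ≤ i → i ≤ X.card → q i ∈ X)
    (hlex : ∀ i < X.card + 1, LexLt (q i) (q (i + 1)))
    (hside : ∀ p ∈ X, det2 (z - a) (p - a) < 0) :
    ∀ i, i + 2 ≤ X.card + 1 → 0 < det2 (q (i + 1) - q i) (q (i + 2) - q (i + 1)) := by
  intro i hi
  have hmem := chain_mem P X a z q hX ha hz hq0 hqM hqX
  have h12 : LexLt (q i) (q (i + 1)) := hlex i (by omega)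
  have h23 : LexLt (q (i + 1)) (q (i + 2)) := hlex (i + 1) (by omega)
  have h13 : LexLt (q i) (q (i + 2)) := lexLt_trans h12 h23
  have hc1 : q i ∈ P := hmem i (by omega)
  have hc2X : q (i + 1) ∈ X := hqX (i + 1) (by omega) (by omega)
  have hc2 : q (i + 1) ∈ P := hX hc2X
  have hc3 : q (i + 2) ∈ P := hmem (i + 2) (by omega)
  by_contra hneg0
  have hneg := not_lt.mp hneg0
  have hne : det2 (q (i + 1) - q i) (q (i + 2) - q (i + 1)) ≠ 0 := by
    rw [det2_sub_eq]
    exact hnc _ hc1 _ hc2 _ hc3 (lexLt_ne h12) (lexLt_ne h13) (lexLt_ne h23)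
  have hlt : det2 (q (i + 1) - q i) (q (i + 2) - q (i + 1)) < 0 := lt_of_le_of_ne hneg hne
  have hhull := mem_hull_of_right_turn_below a z (q i) (q (i + 1)) (q (i + 2)) h12 h23
    ((hamin _ hc1).imp Eq.symm id) (hzmax _ hc3) (hside _ hc2X) hlt
  refine hconv _ hc2 (convexHull_mono ?_ hhull)
  intro x hx
  simp only [Set.mem_insert_iff, Set.mem_singleton_iff] at hx
  simp only [Finset.coe_erase, Set.mem_sdiff, Finset.mem_coe, Set.mem_singleton_iff]
  rcases hx with hx | hx | hx | hx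
  · rw [hx]
    exact ⟨hc1, lexLt_ne h12⟩
  · rw [hx]
    exact ⟨hc3, (lexLt_ne h23).symm⟩
  · rw [hx]
    exact ⟨ha, fun h => haX (by rw [h]; exact hc2X)⟩
  · rw [hx]
    exact ⟨hz, fun h => hzX (by rw [h]; exact hc2X)⟩

theorem chain_turn_right (P X : Finset (ℝ × ℝ)) (a z : ℝ × ℝ) (q : ℕ → ℝ × ℝ)
    (hconv : ∀ p ∈ P, p ∉ convexHull ℝ (↑(P.erase p) : Set (ℝ × ℝ)))
    (hnc : ∀ p ∈ P, ∀ q ∈ P, ∀ r ∈ P, p ≠ q → p ≠ r → q ≠ r → det2 (q - p) (r - p) ≠ 0)
    (hX : X ⊆ P) (ha : a ∈ P) (hz : z ∈ P) (haX : a ∉ X) (hzX : z ∉ X)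
    (hamin : ∀ p ∈ P, p = a ∨ LexLt a p) (hzmax : ∀ p ∈ P, p = z ∨ LexLt p z)
    (hq0 : q 0 = a) (hqM : q (X.card + 1) = z)
    (hqX : ∀ i, 1 ≤ i → i ≤ X.card → q i ∈ X)
    (hlex : ∀ i < X.card + 1, LexLt (q i) (q (i + 1)))
    (hside : ∀ p ∈ X, 0 < det2 (z - a) (p - a)) :
    ∀ i, i + 2 ≤ X.card + 1 → det2 (q (i + 1) - q i) (q (i + 2) - q (i + 1)) < 0 := by
  intro i hi
  have hmem := chain_mem P X a z q hX ha hz hq0 hqM hqX
  have h12 : LexLt (q i) (q (i + 1)) := hlex i (by omega)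
  have h23 : LexLt (q (i + 1)) (q (i + 2)) := hlex (i + 1) (by omega)
  have h13 : LexLt (q i) (q (i + 2)) := lexLt_trans h12 h23
  have hc1 : q i ∈ P := hmem i (by omega)
  have hc2X : q (i + 1) ∈ X := hqX (i + 1) (by omega) (by omega)
  have hc2 : q (i + 1) ∈ P := hX hc2X
  have hc3 : q (i + 2) ∈ P := hmem (i + 2) (by omega)
  by_contra hneg0
  have hneg := not_lt.mp hneg0
  have hne : det2 (q (i + 1) - q i) (q (i + 2) - q (i + 1)) ≠ 0 := by
    rw [det2_sub_eq]
    exact hnc _ hc1 _ hc2 _ hc3 (lexLt_ne h12) (lexLt_ne h13) (lexLt_ne h23)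
  have hlt : 0 < det2 (q (i + 1) - q i) (q (i + 2) - q (i + 1)) :=
    lt_of_le_of_ne hneg (Ne.symm hne)
  have hhull := mem_hull_of_left_turn_above a z (q i) (q (i + 1)) (q (i + 2)) h12 h23
    ((hamin _ hc1).imp Eq.symm id) (hzmax _ hc3) (hside _ hc2X) hlt
  refine hconv _ hc2 (convexHull_mono ?_ hhull)
  intro x hx
  simp only [Set.mem_insert_iff, Set.mem_singleton_iff] at hx
  simp only [Finset.coe_erase, Set.mem_sdiff, Finset.mem_coe, Set.mem_singleton_iff]
  rcases hx with hx | hx | hx | hx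
  · rw [hx]
    exact ⟨hc1, lexLt_ne h12⟩
  · rw [hx]
    exact ⟨hc3, (lexLt_ne h23).symm⟩
  · rw [hx]
    exact ⟨ha, fun h => haX (by rw [h]; exact hc2X)⟩
  · rw [hx]
    exact ⟨hz, fun h => hzX (by rw [h]; exact hc2X)⟩

theorem side_card (P : Finset (ℝ × ℝ)) (a z : ℝ × ℝ) (ha : a ∈ P) (hz : z ∈ P) (haz : a ≠ z)
    (hnc : ∀ p ∈ P, ∀ q ∈ P, ∀ r ∈ P, p ≠ q → p ≠ r → q ≠ r → det2 (q - p) (r - p) ≠ 0) :
    P.card ≤ 2 + (P.filter (fun p => det2 (z - a) (p - a) < 0)).card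
      + (P.filter (fun p => 0 < det2 (z - a) (p - a))).card := by
  classical
  have hsub : P ⊆ (({a, z} : Finset (ℝ × ℝ)) ∪ P.filter (fun p => det2 (z - a) (p - a) < 0))
      ∪ P.filter (fun p => 0 < det2 (z - a) (p - a)) := by
    intro p hp
    simp only [Finset.mem_union, Finset.mem_insert, Finset.mem_singleton, Finset.mem_filter]
    by_cases h1 : p = a
    · exact Or.inl (Or.inl (Or.inl h1))
    by_cases h2 : p = z
    · exact Or.inl (Or.inl (Or.inr h2))
    have := hnc a ha z hz p hp haz (Ne.symm h1) (Ne.symm h2)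
    rcases lt_or_gt_of_ne this with h | h
    · exact Or.inl (Or.inr ⟨hp, h⟩)
    · exact Or.inr ⟨hp, h⟩
  have h1 := Finset.card_le_card hsub
  have h2 := Finset.card_union_le
    (({a, z} : Finset (ℝ × ℝ)) ∪ P.filter (fun p => det2 (z - a) (p - a) < 0))
    (P.filter (fun p => 0 < det2 (z - a) (p - a)))
  have h3 := Finset.card_union_le ({a, z} : Finset (ℝ × ℝ))
    (P.filter (fun p => det2 (z - a) (p - a) < 0))
  have h4 : ({a, z} : Finset (ℝ × ℝ)).card ≤ 2 := Finset.card_le_two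
  omega

theorem exists_chain (P : Finset (ℝ × ℝ)) (hcard : 3 ≤ P.card)
    (hconv : ∀ p ∈ P, p ∉ convexHull ℝ (↑(P.erase p) : Set (ℝ × ℝ)))
    (hnc : ∀ p ∈ P, ∀ q ∈ P, ∀ r ∈ P, p ≠ q → p ≠ r → q ≠ r → det2 (q - p) (r - p) ≠ 0) :
    ∃ (M : ℕ) (q : ℕ → ℝ × ℝ), P.card ≤ 2 * M ∧ (∀ i ≤ M, q i ∈ P) ∧
      (∀ i < M, LexLt (q i) (q (i + 1))) ∧
      ((∀ i, i + 2 ≤ M → 0 < det2 (q (i + 1) - q i) (q (i + 2) - q (i + 1))) ∨
       (∀ i, i + 2 ≤ M → det2 (q (i + 1) - q i) (q (i + 2) - q (i + 1)) < 0)) := by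
  obtain ⟨a, ha, z, hz, haz, hamin, hzmax⟩ := exists_lex_min_max P (by omega)
  have hcardle := side_card P a z ha hz (lexLt_ne haz) hnc
  have hdet0a : det2 (z - a) (a - a) = 0 := by simp [det2]
  have hdet0z : det2 (z - a) (z - a) = 0 := by
    simp only [det2]
    ring
  by_cases hAB : (P.filter (fun p => 0 < det2 (z - a) (p - a))).card
      ≤ (P.filter (fun p => det2 (z - a) (p - a) < 0)).card
  · have haB : a ∉ P.filter (fun p => det2 (z - a) (p - a) < 0) := by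
      intro h
      have h' := (Finset.mem_filter.mp h).2
      rw [hdet0a] at h'
      exact lt_irrefl _ h'
    have hzB : z ∉ P.filter (fun p => det2 (z - a) (p - a) < 0) := by
      intro h
      have h' := (Finset.mem_filter.mp h).2
      rw [hdet0z] at h'
      exact lt_irrefl _ h'
    obtain ⟨q, hq0, hqM, hqX, hlex⟩ := exists_chain_of_side P _ a z
      (Finset.filter_subset _ _) haB hzB hamin hzmax haz
    refine ⟨_, q, ?_, chain_mem P _ a z q (Finset.filter_subset _ _) ha hz hq0 hqM hqX, hlex,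
      Or.inl ?_⟩
    · omega
    · exact chain_turn_left P _ a z q hconv hnc (Finset.filter_subset _ _) ha hz haB hzB
        hamin hzmax hq0 hqM hqX hlex (fun p hp => (Finset.mem_filter.mp hp).2)
  · have haA : a ∉ P.filter (fun p => 0 < det2 (z - a) (p - a)) := by
      intro h
      have h' := (Finset.mem_filter.mp h).2
      rw [hdet0a] at h'
      exact lt_irrefl _ h'
    have hzA : z ∉ P.filter (fun p => 0 < det2 (z - a) (p - a)) := by
      intro h
      have h' := (Finset.mem_filter.mp h).2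
      rw [hdet0z] at h'
      exact lt_irrefl _ h'
    obtain ⟨q, hq0, hqM, hqX, hlex⟩ := exists_chain_of_side P _ a z
      (Finset.filter_subset _ _) haA hzA hamin hzmax haz
    refine ⟨_, q, ?_, chain_mem P _ a z q (Finset.filter_subset _ _) ha hz hq0 hqM hqX, hlex,
      Or.inr ?_⟩
    · omega
    · exact chain_turn_right P _ a z q hconv hnc (Finset.filter_subset _ _) ha hz haA hzA
        hamin hzmax hq0 hqM hqX hlex (fun p hp => (Finset.mem_filter.mp hp).2)

end Vale.Agent.H51.Heil
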