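import Mathlib

/-!
# P036, convex position: pigeonhole + AM-GM on a block of steps (ROW HL-2)

`k + 1` nonnegative lengths `A 0 .. A k` with sum `≤ 1`, and `T 0 ≤ T 1 ≤ .. ≤ T k` with
`T k - T 0 ≤ 2`.  Then the sum over `i < k` of `A i + A (i+1) + (T (i+1) - T i)` is
`≤ 1 + 1 + 2 = 4`, so some `i < k` has it `≤ 4 / k`, and by AM-GM
(`a * b * c ≤ ((a + b + c) / 3) ^ 3` for nonnegative reals) the product is `≤ (4 / (3 k)) ^ 3`.
-/

namespace Vale.Agent.H51.Heil

theorem hl2_amgm (a b c : ℝ) (ha : 0 ≤ a) (hb : 0 ≤ b) (hc : 0 ≤ c) :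
    a * b * c ≤ ((a + b + c) / 3) ^ 3 := by
  have h1 := mul_nonneg ha (sq_nonneg (b - c))
  have h2 := mul_nonneg hb (sq_nonneg (c - a))
  have h3 := mul_nonneg hc (sq_nonneg (a - b))
  have h4 := mul_nonneg (add_nonneg (add_nonneg ha hb) hc) (sq_nonneg (a - b))
  have h5 := mul_nonneg (add_nonneg (add_nonneg ha hb) hc) (sq_nonneg (b - c))
  have h6 := mul_nonneg (add_nonneg (add_nonneg ha hb) hc) (sq_nonneg (c - a))
  nlinarith

theorem group_bound (k : ℕ) (hk : 1 ≤ k) (A T : ℕ → ℝ)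
    (hA : ∀ i ≤ k, 0 ≤ A i) (hsum : ∑ i ∈ Finset.range (k + 1), A i ≤ 1)
    (hT : ∀ i < k, T i ≤ T (i + 1)) (hrange : T k - T 0 ≤ 2) :
    ∃ i < k, A i * A (i + 1) * (T (i + 1) - T i) ≤ (4 / (3 * (k : ℝ))) ^ 3 := by
  have hkpos : (0 : ℝ) < k := by exact_mod_cast hk
  have hs1 : ∑ i ∈ Finset.range k, A i ≤ 1 := by
    have := Finset.sum_range_succ A k
    have hAk := hA k le_rfl
    linarith
  have hs2 : ∑ i ∈ Finset.range k, A (i + 1) ≤ 1 := by
    have := Finset.sum_range_succ' A k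
    have hA0 := hA 0 (Nat.zero_le k)
    linarith
  have hs3 : ∑ i ∈ Finset.range k, (T (i + 1) - T i) = T k - T 0 := Finset.sum_range_sub T k
  have htot : ∑ i ∈ Finset.range k, (A i + A (i + 1) + (T (i + 1) - T i)) ≤ 4 := by
    rw [Finset.sum_add_distrib, Finset.sum_add_distrib]
    linarith
  have hex : ∃ i ∈ Finset.range k, A i + A (i + 1) + (T (i + 1) - T i) ≤ 4 / (k : ℝ) := by
    by_contra hcon
    have hall : ∀ i ∈ Finset.range k, 4 / (k : ℝ) < A i + A (i + 1) + (T (i + 1) - T i) := by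
      intro i hi
      by_contra h
      exact hcon ⟨i, hi, not_lt.mp h⟩
    have hne : (Finset.range k).Nonempty := ⟨0, Finset.mem_range.mpr (by omega)⟩
    have hlt := Finset.sum_lt_sum_of_nonempty hne hall
    rw [Finset.sum_const, Finset.card_range, nsmul_eq_mul] at hlt
    have : (k : ℝ) * (4 / (k : ℝ)) = 4 := by
      field_simp
    linarith
  obtain ⟨i, hi, hle⟩ := hex
  have hik : i < k := Finset.mem_range.mp hi
  refine ⟨i, hik, ?_⟩
  have ha := hA i hik.le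
  have hb := hA (i + 1) (by omega)
  have hc : 0 ≤ T (i + 1) - T i := sub_nonneg.mpr (hT i hik)
  have h1 := hl2_amgm (A i) (A (i + 1)) (T (i + 1) - T i) ha hb hc
  have h2 : (A i + A (i + 1) + (T (i + 1) - T i)) / 3 ≤ 4 / (3 * (k : ℝ)) := by
    have : 4 / (3 * (k : ℝ)) = (4 / (k : ℝ)) / 3 := by
      field_simp
    rw [this]
    linarith
  have h3 : 0 ≤ (A i + A (i + 1) + (T (i + 1) - T i)) / 3 := by positivity
  exact h1.trans (pow_le_pow_left₀ h3 h2 3)

end Vale.Agent.H51.Heil
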