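import Mathlib
import Vale.Agent.H51.Heil.Defs
import Vale.Agent.H51.Heil.Basic

/-!
# P036, convex position: step types (ROW HL-1)

A step `u = (w, h)` is lex-positive (`LexPos`): `w > 0`, or `w = 0` and `h > 0`.  Type `1`
(flat): `|h| ≤ w` (then `w > 0`); type `2` (steep rising): not flat and `h > 0` (then `h > w ≥ 0`);
type `0` (steep falling): not flat and `h ≤ 0` (then `h < - w ≤ 0`).
`stepA u = max w |h|` is `w`, `h`, `- h` in the three cases and `stepT u` is `h / w`, `- w / h`,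
`w / (- h)`.  In each case `det2 u v = stepA u * stepA v * (stepT v - stepT u)` when `u`, `v` have
the same type (direct computation).  Monotonicity of the type under `0 < det2 u v`:
(a) if `v` is of type `0` so is `u`: otherwise `u.2 ≥ - u.1`; if `u.1 > 0` then
`u.1 * v.2 < - u.1 * v.1` and `- u.2 * v.1 ≤ u.1 * v.1`, so `det2 u v < 0`; if `u.1 = 0` then
`u.2 > 0` and `det2 u v = - u.2 * v.1 ≤ 0`.
(b) if `u` is of type `2` so is `v`: otherwise `v.2 ≤ v.1`, and then
`u.1 * v.2 ≤ u.1 * v.1 ≤ u.2 * v.1`, so `det2 u v ≤ 0`.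
-/

namespace Vale.Agent.H51.Heil

theorem hl1_fst_nonneg (u : ℝ × ℝ) (hu : LexPos u) : 0 ≤ u.1 := by
  rcases hu with h | ⟨h, _⟩
  · exact h.le
  · exact h.ge

theorem hl1_fst_pos (u : ℝ × ℝ) (hu : LexPos u) (h1 : |u.2| ≤ u.1) : 0 < u.1 := by
  rcases hu with h | ⟨h3, h4⟩
  · exact h
  · rw [h3] at h1
    have := abs_pos.mpr h4.ne'
    linarith

theorem hl1_ty_one (u : ℝ × ℝ) : stepTy u = 1 ↔ |u.2| ≤ u.1 := by
  unfold stepTy
  split_ifs <;> simp_all

theorem hl1_ty_two (u : ℝ × ℝ) : stepTy u = 2 ↔ ¬ |u.2| ≤ u.1 ∧ 0 < u.2 := by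
  unfold stepTy
  split_ifs <;> simp_all

theorem hl1_ty_zero (u : ℝ × ℝ) : stepTy u = 0 ↔ ¬ |u.2| ≤ u.1 ∧ ¬ 0 < u.2 := by
  unfold stepTy
  split_ifs <;> simp_all

theorem stepA_pos (u : ℝ × ℝ) (hu : LexPos u) : 0 < stepA u := by
  unfold stepA
  rcases hu with h | ⟨_, h2⟩
  · exact lt_max_of_lt_left h
  · exact lt_max_of_lt_right (abs_pos.mpr h2.ne')

theorem stepT_mem (u : ℝ × ℝ) (hu : LexPos u) : -1 ≤ stepT u ∧ stepT u ≤ 1 := by
  have hu1 := hl1_fst_nonneg u hu
  unfold stepT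
  split_ifs with h1 h2
  · have hpos := hl1_fst_pos u hu h1
    have h3 := abs_le.mp h1
    constructor
    · rw [le_div_iff₀ hpos]
      linarith [h3.1]
    · rw [div_le_iff₀ hpos]
      linarith [h3.2]
  · have hlt : u.1 < u.2 := by
      rw [abs_of_pos h2] at h1
      exact not_le.mp h1
    have h4 : 0 ≤ u.1 / u.2 := div_nonneg hu1 h2.le
    have h5 : u.1 / u.2 ≤ 1 := by
      rw [div_le_iff₀ h2]
      linarith
    constructor <;> linarith
  · have hle : u.2 ≤ 0 := not_lt.mp h2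
    have hlt : u.1 < -u.2 := by
      rw [abs_of_nonpos hle] at h1
      exact not_le.mp h1
    have hneg : 0 < -u.2 := by linarith
    have h4 : 0 ≤ u.1 / (-u.2) := div_nonneg hu1 hneg.le
    have h5 : u.1 / (-u.2) ≤ 1 := by
      rw [div_le_iff₀ hneg]
      linarith
    constructor <;> linarith

theorem stepTy_le_two (u : ℝ × ℝ) : stepTy u ≤ 2 := by
  unfold stepTy
  split_ifs <;> norm_num

theorem stepA_of_ty_one (u : ℝ × ℝ) (h : stepTy u = 1) : stepA u = u.1 := by
  have h1 := (hl1_ty_one u).mp h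
  exact max_eq_left h1

theorem stepA_of_ty_two (u : ℝ × ℝ) (h : stepTy u = 2) : stepA u = u.2 := by
  obtain ⟨h1, h2⟩ := (hl1_ty_two u).mp h
  unfold stepA
  rw [abs_of_pos h2] at h1 ⊢
  exact max_eq_right (not_le.mp h1).le

theorem stepA_of_ty_zero (u : ℝ × ℝ) (h : stepTy u = 0) : stepA u = -u.2 := by
  obtain ⟨h1, h2⟩ := (hl1_ty_zero u).mp h
  have hle : u.2 ≤ 0 := not_lt.mp h2
  unfold stepA
  rw [abs_of_nonpos hle] at h1 ⊢
  exact max_eq_right (not_le.mp h1).le

theorem hl1_zero_of_zero (u v : ℝ × ℝ) (hu : LexPos u) (hv : LexPos v) (hd : 0 < det2 u v)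
    (h : stepTy v = 0) : stepTy u = 0 := by
  obtain ⟨h1, h2⟩ := (hl1_ty_zero v).mp h
  have hle : v.2 ≤ 0 := not_lt.mp h2
  have hlt : v.1 < -v.2 := by
    rw [abs_of_nonpos hle] at h1
    exact not_le.mp h1
  have hu1 := hl1_fst_nonneg u hu
  have hv1 := hl1_fst_nonneg v hv
  unfold det2 at hd
  have key : u.2 < -u.1 := by
    by_contra hcon
    have hge : -u.1 ≤ u.2 := not_lt.mp hcon
    have e1 : u.1 * (v.2 + v.1) ≤ 0 := mul_nonpos_of_nonneg_of_nonpos hu1 (by linarith)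
    have e2 : 0 ≤ (u.2 + u.1) * v.1 := mul_nonneg (by linarith) hv1
    nlinarith
  rw [hl1_ty_zero]
  have hneg : u.2 < 0 := by linarith
  refine ⟨?_, not_lt.mpr hneg.le⟩
  rw [abs_of_neg hneg]
  exact not_le.mpr (by linarith)

theorem hl1_two_of_two (u v : ℝ × ℝ) (hu : LexPos u) (hv : LexPos v) (hd : 0 < det2 u v)
    (h : stepTy u = 2) : stepTy v = 2 := by
  obtain ⟨h1, h2⟩ := (hl1_ty_two u).mp h
  have hlt : u.1 < u.2 := by
    rw [abs_of_pos h2] at h1
    exact not_le.mp h1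
  have hu1 := hl1_fst_nonneg u hu
  have hv1 := hl1_fst_nonneg v hv
  unfold det2 at hd
  have key : v.1 < v.2 := by
    by_contra hcon
    have hge : v.2 ≤ v.1 := not_lt.mp hcon
    have e1 : u.1 * (v.2 - v.1) ≤ 0 := mul_nonpos_of_nonneg_of_nonpos hu1 (by linarith)
    have e2 : 0 ≤ (u.2 - u.1) * v.1 := mul_nonneg (by linarith) hv1
    nlinarith
  rw [hl1_ty_two]
  have hpos : 0 < v.2 := by linarith
  refine ⟨?_, hpos⟩
  rw [abs_of_pos hpos]
  exact not_le.mpr key

theorem stepTy_mono (u v : ℝ × ℝ) (hu : LexPos u) (hv : LexPos v) (hd : 0 < det2 u v) :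
    stepTy u ≤ stepTy v := by
  have h1 := stepTy_le_two u
  have h2 := stepTy_le_two v
  by_contra hcon
  have hlt : stepTy v < stepTy u := not_le.mp hcon
  by_cases hv0 : stepTy v = 0
  · have := hl1_zero_of_zero u v hu hv hd hv0
    omega
  · have hu2 : stepTy u = 2 := by omega
    have := hl1_two_of_two u v hu hv hd hu2
    omega

theorem det2_eq_of_stepTy_eq (u v : ℝ × ℝ) (hu : LexPos u) (hv : LexPos v)
    (h : stepTy u = stepTy v) : det2 u v = stepA u * stepA v * (stepT v - stepT u) := by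
  have hle := stepTy_le_two u
  have hcases : stepTy u = 1 ∨ stepTy u = 2 ∨ stepTy u = 0 := by omega
  rcases hcases with hu1 | hu2 | hu0
  · have hv1 : stepTy v = 1 := by omega
    rw [stepA_of_ty_one u hu1, stepA_of_ty_one v hv1]
    have hau := (hl1_ty_one u).mp hu1
    have hav := (hl1_ty_one v).mp hv1
    have hup := hl1_fst_pos u hu hau
    have hvp := hl1_fst_pos v hv hav
    unfold stepT det2
    rw [if_pos hau, if_pos hav]
    field_simp
  · have hv2 : stepTy v = 2 := by omega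
    rw [stepA_of_ty_two u hu2, stepA_of_ty_two v hv2]
    obtain ⟨hau, hup⟩ := (hl1_ty_two u).mp hu2
    obtain ⟨hav, hvp⟩ := (hl1_ty_two v).mp hv2
    unfold stepT det2
    rw [if_neg hau, if_neg hav, if_pos hup, if_pos hvp]
    field_simp
    ring
  · have hv0 : stepTy v = 0 := by omega
    rw [stepA_of_ty_zero u hu0, stepA_of_ty_zero v hv0]
    obtain ⟨hau, hup⟩ := (hl1_ty_zero u).mp hu0
    obtain ⟨hav, hvp⟩ := (hl1_ty_zero v).mp hv0
    have hule : u.2 ≤ 0 := not_lt.mp hup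
    have hvle : v.2 ≤ 0 := not_lt.mp hvp
    have hu1 := hl1_fst_nonneg u hu
    have hv1 := hl1_fst_nonneg v hv
    have hun : u.2 < 0 := by
      rw [abs_of_nonpos hule] at hau
      linarith [not_le.mp hau]
    have hvn : v.2 < 0 := by
      rw [abs_of_nonpos hvle] at hav
      linarith [not_le.mp hav]
    have hune : u.2 ≠ 0 := hun.ne
    have hvne : v.2 ≠ 0 := hvn.ne
    unfold stepT det2
    rw [if_neg hau, if_neg hav, if_neg hup, if_neg hvp]
    field_simp
    ring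

end Vale.Agent.H51.Heil
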