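import Mathlib

/-!
# P036, convex position: a monotone three-valued sequence has a long constant block (ROW HL-3)

`ty 0 ≤ ty 1 ≤ .. ≤ ty (M-1)` with values in `{0, 1, 2}`.  The three level sets are intervals of
indices and their sizes add up to `M`, so one of them, `{j, .., j + k}`, has `k + 1 ≥ M / 3`.
-/

namespace Vale.Agent.H51.Heil

theorem hl3_mono (M : ℕ) (ty : ℕ → ℕ) (hmono : ∀ i, i + 1 < M → ty i ≤ ty (i + 1)) :
    ∀ d i, i + d < M → ty i ≤ ty (i + d) := by
  intro d
  induction d with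
  | zero => intro i _; exact le_rfl
  | succ d ih =>
    intro i hi
    have h1 := ih i (by omega)
    have h2 := hmono (i + d) (by omega)
    exact h1.trans h2

theorem three_blocks (M : ℕ) (hM : 1 ≤ M) (ty : ℕ → ℕ) (hty : ∀ i < M, ty i ≤ 2)
    (hmono : ∀ i, i + 1 < M → ty i ≤ ty (i + 1)) :
    ∃ j k, j + k < M ∧ M ≤ 3 * (k + 1) ∧ ∀ i ≤ k, ty (j + i) = ty j := by
  classical
  have hmon := hl3_mono M ty hmono
  have hex1 : ∃ i, i = M ∨ 1 ≤ ty i := ⟨M, Or.inl rfl⟩
  have hex2 : ∃ i, i = M ∨ 2 ≤ ty i := ⟨M, Or.inl rfl⟩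
  obtain ⟨a, ha_spec, ha_min⟩ : ∃ a, (a = M ∨ 1 ≤ ty a) ∧ ∀ m < a, ¬ (m = M ∨ 1 ≤ ty m) :=
    ⟨Nat.find hex1, Nat.find_spec hex1, fun m hm => Nat.find_min hex1 hm⟩
  obtain ⟨b, hb_spec, hb_min⟩ : ∃ b, (b = M ∨ 2 ≤ ty b) ∧ ∀ m < b, ¬ (m = M ∨ 2 ≤ ty m) :=
    ⟨Nat.find hex2, Nat.find_spec hex2, fun m hm => Nat.find_min hex2 hm⟩
  have haM : a ≤ M := by
    by_contra h
    exact ha_min M (by omega) (Or.inl rfl)
  have hbM : b ≤ M := by
    by_contra h
    exact hb_min M (by omega) (Or.inl rfl)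
  have hab : a ≤ b := by
    by_contra h
    have hlt : b < a := by omega
    rcases hb_spec with h1 | h1
    · omega
    · exact ha_min b hlt (Or.inr (by omega))
  -- block 0
  have h0 : ∀ i < a, ty i = 0 := by
    intro i hi
    have := ha_min i hi
    by_contra hne
    exact this (Or.inr (by omega))
  -- block 1
  have h1 : ∀ i, a ≤ i → i < b → ty i = 1 := by
    intro i hai hib
    have hlt2 : ty i < 2 := by
      have := hb_min i hib
      by_contra hne
      exact this (Or.inr (by omega))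
    have hge : 1 ≤ ty a := by
      rcases ha_spec with h | h
      · omega
      · exact h
    have hle : ty a ≤ ty i := by
      have := hmon (i - a) a (by omega)
      rwa [Nat.add_sub_cancel' hai] at this
    omega
  -- block 2
  have h2 : ∀ i, b ≤ i → i < M → ty i = 2 := by
    intro i hbi hiM
    have hge : 2 ≤ ty b := by
      rcases hb_spec with h | h
      · omega
      · exact h
    have hle : ty b ≤ ty i := by
      have := hmon (i - b) b (by omega)
      rwa [Nat.add_sub_cancel' hbi] at this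
    have := hty i hiM
    omega
  have hcases : M ≤ 3 * a ∨ M ≤ 3 * (b - a) ∨ M ≤ 3 * (M - b) := by omega
  rcases hcases with hc | hc | hc
  · refine ⟨0, a - 1, by omega, by omega, ?_⟩
    intro i hi
    rw [h0 (0 + i) (by omega), h0 0 (by omega)]
  · refine ⟨a, b - a - 1, by omega, by omega, ?_⟩
    intro i hi
    rw [h1 (a + i) (by omega) (by omega), h1 a le_rfl (by omega)]
  · refine ⟨b, M - b - 1, by omega, by omega, ?_⟩
    intro i hi
    rw [h2 (b + i) (by omega) (by omega), h2 b le_rfl (by omega)]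

end Vale.Agent.H51.Heil
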