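import Mathlib
import Vale.Agent.H51.Heil.Defs
import Vale.Agent.H51.Heil.Basic
import Vale.Agent.H51.Heil.Step
import Vale.Agent.H51.Heil.GroupBound
import Vale.Agent.H51.Heil.ThreeBlocks

/-!
# P036, convex position: the chain lemma (ROW HL-4)

`q 0, .., q M` in the unit square, lex-increasing, all turns to the left.  Steps
`u i = q (i+1) - q i` (`i < M`) are lex-positive (`lexPos_sub`); `ty i = stepTy (u i)` is `≤ 2`
and nondecreasing (`stepTy_mono` with `hturn`).  `three_blocks` gives a block `j, .., j + k` of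
steps of one type with `M ≤ 3 (k + 1)`, so `k ≥ 1` and `3 k ≥ M - 3 > 0`.  On the block put
`A i = stepA (u (j+i))`, `T i = stepT (u (j+i))`: `A i > 0` (`stepA_pos`); by
`det2_eq_of_stepTy_eq` and `hturn`, `T` increases; `T k - T 0 ≤ 2` (`stepT_mem`); the sum of the
`A i`, `i ≤ k`, telescopes to a difference of first coordinates (type `1`, `stepA_of_ty_one`) or of
second coordinates (types `2`, `0`) of `q (j+k+1)` and `q j`, hence is `≤ 1` (`hbox`).
`group_bound` gives `i < k` with `det2 (u (j+i)) (u (j+i+1)) ≤ (4 / (3 k)) ^ 3 ≤ (4 / (M - 3)) ^ 3`.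
-/

namespace Vale.Agent.H51.Heil

theorem hl4_tele (k : ℕ) (A g : ℕ → ℝ) (h : ∀ i ≤ k, A i = g (i + 1) - g i) :
    ∑ i ∈ Finset.range (k + 1), A i = g (k + 1) - g 0 := by
  rw [← Finset.sum_range_sub g (k + 1)]
  exact Finset.sum_congr rfl
    (fun i hi => h i (Nat.lt_succ_iff.mp (Finset.mem_range.mp hi)))

theorem chain_bound (M : ℕ) (hM : 4 ≤ M) (q : ℕ → ℝ × ℝ)
    (hbox : ∀ i ≤ M, InSq (q i))
    (hlex : ∀ i < M, LexLt (q i) (q (i + 1)))
    (hturn : ∀ i, i + 2 ≤ M → 0 < det2 (q (i + 1) - q i) (q (i + 2) - q (i + 1))) :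
    ∃ i, i + 2 ≤ M ∧
      det2 (q (i + 1) - q i) (q (i + 2) - q (i + 1)) ≤ 64 / ((M : ℝ) - 3) ^ 3 := by
  obtain ⟨u, hu⟩ : ∃ u : ℕ → ℝ × ℝ, ∀ i, u i = q (i + 1) - q i := ⟨_, fun _ => rfl⟩
  have hpos : ∀ i < M, LexPos (u i) := by
    intro i hi
    rw [hu]
    exact lexPos_sub (hlex i hi)
  have hdet : ∀ i, i + 2 ≤ M → 0 < det2 (u i) (u (i + 1)) := by
    intro i hi
    rw [hu, hu]
    exact hturn i hi
  obtain ⟨j, k, hjk, hMk, hty⟩ := three_blocks M (by omega) (fun i => stepTy (u i))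
    (fun i _ => stepTy_le_two _)
    (fun i hi => stepTy_mono (u i) (u (i + 1)) (hpos i (by omega)) (hpos (i + 1) hi)
      (hdet i (by omega)))
  have hty' : ∀ i ≤ k, stepTy (u (j + i)) = stepTy (u j) := hty
  have hk : 1 ≤ k := by omega
  obtain ⟨A, hA⟩ : ∃ A : ℕ → ℝ, ∀ i, A i = stepA (u (j + i)) := ⟨_, fun _ => rfl⟩
  obtain ⟨T, hT⟩ : ∃ T : ℕ → ℝ, ∀ i, T i = stepT (u (j + i)) := ⟨_, fun _ => rfl⟩
  have hApos : ∀ i ≤ k, 0 < A i := by
    intro i hi
    rw [hA]
    exact stepA_pos _ (hpos (j + i) (by omega))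
  have hdetAT : ∀ i < k,
      det2 (u (j + i)) (u (j + (i + 1))) = A i * A (i + 1) * (T (i + 1) - T i) := by
    intro i hi
    rw [hA, hA, hT, hT]
    exact det2_eq_of_stepTy_eq (u (j + i)) (u (j + (i + 1))) (hpos _ (by omega))
      (hpos _ (by omega)) (by rw [hty' i hi.le, hty' (i + 1) (by omega)])
  have hTmono : ∀ i < k, T i ≤ T (i + 1) := by
    intro i hi
    have h1 : 0 < det2 (u (j + i)) (u (j + (i + 1))) := hdet (j + i) (by omega)
    rw [hdetAT i hi] at h1
    have h2 := mul_pos (hApos i hi.le) (hApos (i + 1) (by omega))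
    by_contra hcon
    have h3 : T (i + 1) - T i < 0 := by linarith [not_le.mp hcon]
    have h4 := mul_neg_of_pos_of_neg h2 h3
    linarith
  have hrange : T k - T 0 ≤ 2 := by
    have h1 := (stepT_mem (u (j + k)) (hpos _ (by omega))).2
    have h2 := (stepT_mem (u (j + 0)) (hpos _ (by omega))).1
    rw [hT, hT]
    linarith
  have hsum : ∑ i ∈ Finset.range (k + 1), A i ≤ 1 := by
    have hle := stepTy_le_two (u j)
    have hcases : stepTy (u j) = 1 ∨ stepTy (u j) = 2 ∨ stepTy (u j) = 0 := by omega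
    obtain ⟨b1, b2, b3, b4⟩ := hbox (j + (k + 1)) (by omega)
    obtain ⟨d1, d2, d3, d4⟩ := hbox (j + 0) (by omega)
    rcases hcases with h1 | h2 | h0
    · have hA1 : ∀ i ≤ k, A i = (q (j + (i + 1))).1 - (q (j + i)).1 := by
        intro i hi
        rw [hA, stepA_of_ty_one _ ((hty' i hi).trans h1), hu]
        rfl
      have hs : ∑ i ∈ Finset.range (k + 1), A i = (q (j + (k + 1))).1 - (q (j + 0)).1 :=
        hl4_tele k A (fun i => (q (j + i)).1) hA1
      rw [hs]
      linarith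
    · have hA1 : ∀ i ≤ k, A i = (q (j + (i + 1))).2 - (q (j + i)).2 := by
        intro i hi
        rw [hA, stepA_of_ty_two _ ((hty' i hi).trans h2), hu]
        rfl
      have hs : ∑ i ∈ Finset.range (k + 1), A i = (q (j + (k + 1))).2 - (q (j + 0)).2 :=
        hl4_tele k A (fun i => (q (j + i)).2) hA1
      rw [hs]
      linarith
    · have hA1 : ∀ i ≤ k, A i = -(q (j + (i + 1))).2 - -(q (j + i)).2 := by
        intro i hi
        rw [hA, stepA_of_ty_zero _ ((hty' i hi).trans h0), hu]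
        simp only [Prod.snd_sub]
        ring_nf
      have hs : ∑ i ∈ Finset.range (k + 1), A i = -(q (j + (k + 1))).2 - -(q (j + 0)).2 :=
        hl4_tele k A (fun i => -(q (j + i)).2) hA1
      rw [hs]
      linarith
  obtain ⟨i, hi, hle⟩ := group_bound k hk A T (fun i hi => (hApos i hi).le) hsum hTmono hrange
  refine ⟨j + i, by omega, ?_⟩
  have h1 : det2 (q (j + i + 1) - q (j + i)) (q (j + i + 2) - q (j + i + 1))
      = A i * A (i + 1) * (T (i + 1) - T i) := by
    rw [← hdetAT i hi, hu, hu]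
    rfl
  rw [h1]
  refine hle.trans ?_
  have hkpos : (0 : ℝ) < k := by exact_mod_cast hk
  have hM3 : (M : ℝ) - 3 ≤ 3 * (k : ℝ) := by
    have : (M : ℝ) ≤ 3 * ((k : ℝ) + 1) := by exact_mod_cast hMk
    linarith
  have hMpos : (0 : ℝ) < (M : ℝ) - 3 := by
    have : (4 : ℝ) ≤ M := by exact_mod_cast hM
    linarith
  have h2 : 4 / (3 * (k : ℝ)) ≤ 4 / ((M : ℝ) - 3) :=
    div_le_div_of_nonneg_left (by norm_num) hMpos hM3
  have h3 : (4 / ((M : ℝ) - 3)) ^ 3 = 64 / ((M : ℝ) - 3) ^ 3 := by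
    rw [div_pow]
    norm_num
  rw [← h3]
  exact pow_le_pow_left₀ (by positivity) h2 3

end Vale.Agent.H51.Heil
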