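import Mathlib
import Vale.Agent.H51.Heil.Defs
import Vale.Agent.H51.Heil.Basic
import Vale.Agent.H51.Heil.ChainBound

/-!
# P036, convex position: chains turning to the right (ROW HL-5)

Apply `chain_bound` to `q' i = (1, 1) - q (M - i)`: it stays in the unit square, its steps
`q' (i+1) - q' i = q (M - i) - q (M - i - 1)` are the steps of `q` in reverse order (still
lex-positive, so `q'` is lex-increasing), and
`det2 (q' (i+1) - q' i) (q' (i+2) - q' (i+1)) = - det2 (q (M-i-1) - q (M-i-2)) (q (M-i) - q (M-i-1))`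
is positive for `i + 2 ≤ M`.
-/

namespace Vale.Agent.H51.Heil

theorem hl5_lex_flip {x y : ℝ × ℝ} (h : LexLt x y) : LexLt ((1, 1) - y) ((1, 1) - x) := by
  rcases h with h | ⟨h1, h2⟩
  · left
    simp only [Prod.fst_sub]
    linarith
  · right
    refine ⟨?_, ?_⟩
    · simp only [Prod.fst_sub]
      rw [h1]
    · simp only [Prod.snd_sub]
      linarith

theorem chain_bound_right (M : ℕ) (hM : 4 ≤ M) (q : ℕ → ℝ × ℝ)
    (hbox : ∀ i ≤ M, InSq (q i))
    (hlex : ∀ i < M, LexLt (q i) (q (i + 1)))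
    (hturn : ∀ i, i + 2 ≤ M → det2 (q (i + 1) - q i) (q (i + 2) - q (i + 1)) < 0) :
    ∃ i, i + 2 ≤ M ∧
      -(64 / ((M : ℝ) - 3) ^ 3) ≤ det2 (q (i + 1) - q i) (q (i + 2) - q (i + 1)) := by
  obtain ⟨q', hq'⟩ : ∃ q' : ℕ → ℝ × ℝ, ∀ i, q' i = (1, 1) - q (M - i) := ⟨_, fun _ => rfl⟩
  have hbox' : ∀ i ≤ M, InSq (q' i) := by
    intro i hi
    obtain ⟨b1, b2, b3, b4⟩ := hbox (M - i) (by omega)
    rw [hq']
    refine ⟨?_, ?_, ?_, ?_⟩
    · simp only [Prod.fst_sub]
      linarith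
    · simp only [Prod.fst_sub]
      linarith
    · simp only [Prod.snd_sub]
      linarith
    · simp only [Prod.snd_sub]
      linarith
  have hlex' : ∀ i < M, LexLt (q' i) (q' (i + 1)) := by
    intro i hi
    rw [hq', hq']
    have h1 := hlex (M - (i + 1)) (by omega)
    have h2 : M - (i + 1) + 1 = M - i := by omega
    rw [h2] at h1
    exact hl5_lex_flip h1
  have hkey : ∀ i, i + 2 ≤ M → det2 (q' (i + 1) - q' i) (q' (i + 2) - q' (i + 1))
      = -det2 (q (M - (i + 2) + 1) - q (M - (i + 2)))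
          (q (M - (i + 2) + 2) - q (M - (i + 2) + 1)) := by
    intro i hi
    rw [hq', hq', hq']
    have e1 : M - (i + 2) + 1 = M - (i + 1) := by omega
    have e2 : M - (i + 2) + 2 = M - i := by omega
    rw [e1, e2]
    simp only [det2, Prod.fst_sub, Prod.snd_sub]
    ring
  have hturn' : ∀ i, i + 2 ≤ M → 0 < det2 (q' (i + 1) - q' i) (q' (i + 2) - q' (i + 1)) := by
    intro i hi
    rw [hkey i hi]
    have := hturn (M - (i + 2)) (by omega)
    linarith
  obtain ⟨i, hi, hle⟩ := chain_bound M hM q' hbox' hlex' hturn'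
  refine ⟨M - (i + 2), by omega, ?_⟩
  rw [hkey i hi] at hle
  linarith

end Vale.Agent.H51.Heil
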