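import Mathlib
import Vale.Agent.H51.Heil.Defs
import Vale.Agent.H51.Heil.Basic
import Vale.Agent.H51.Heil.ChainBound
import Vale.Agent.H51.Heil.ChainRight
import Vale.Agent.H51.Heil.Chain

/-!
# P036, convex position: the upper bound `2048 / n ^ 3`
-/

namespace Vale.Agent.H51.Heil

theorem chain_area (M : ℕ) (hM : 4 ≤ M) (q : ℕ → ℝ × ℝ) (hbox : ∀ i ≤ M, InSq (q i))
    (hlex : ∀ i < M, LexLt (q i) (q (i + 1)))
    (hturn : (∀ i, i + 2 ≤ M → 0 < det2 (q (i + 1) - q i) (q (i + 2) - q (i + 1))) ∨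
       (∀ i, i + 2 ≤ M → det2 (q (i + 1) - q i) (q (i + 2) - q (i + 1)) < 0)) :
    ∃ i, i + 2 ≤ M ∧ triArea (q i) (q (i + 1)) (q (i + 2)) ≤ 32 / ((M : ℝ) - 3) ^ 3 := by
  have h32 : (32 : ℝ) / ((M : ℝ) - 3) ^ 3 = (64 / ((M : ℝ) - 3) ^ 3) / 2 := by ring
  rcases hturn with hturn | hturn
  · obtain ⟨i, hi, hb⟩ := chain_bound M hM q hbox hlex hturn
    refine ⟨i, hi, ?_⟩
    rw [triArea_eq_det2, abs_of_pos (hturn i hi), h32]
    linarith
  · obtain ⟨i, hi, hb⟩ := chain_bound_right M hM q hbox hlex hturn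
    refine ⟨i, hi, ?_⟩
    rw [triArea_eq_det2, abs_of_neg (hturn i hi), h32]
    linarith

/-- Part (i): `n ≥ 3` points of the unit square in convex position contain three distinct points
spanning a triangle of area at most `2048 / n ^ 3`. -/
theorem convex_position_bound (n : ℕ) (hn : 3 ≤ n) (P : Finset (ℝ × ℝ)) (hcard : P.card = n)
    (hsq : ∀ p ∈ P, InSq p)
    (hconv : ∀ p ∈ P, p ∉ convexHull ℝ (↑(P.erase p) : Set (ℝ × ℝ))) :
    ∃ p ∈ P, ∃ q ∈ P, ∃ r ∈ P, p ≠ q ∧ p ≠ r ∧ q ≠ r ∧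
      triArea p q r ≤ 2048 / (n : ℝ) ^ 3 := by
  have hn3 : (3 : ℝ) ≤ n := by exact_mod_cast hn
  have hnpos : (0 : ℝ) < n := by linarith
  have hn3pos : (0 : ℝ) < (n : ℝ) ^ 3 := pow_pos hnpos 3
  by_cases hnc : ∀ p ∈ P, ∀ q ∈ P, ∀ r ∈ P, p ≠ q → p ≠ r → q ≠ r → det2 (q - p) (r - p) ≠ 0
  · by_cases hsmall : n ≤ 11
    · obtain ⟨p, hp, q, hq, r, hr, hpq, hpr, hqr⟩ :=
        Finset.two_lt_card.mp (by omega : 2 < P.card)
      refine ⟨p, hp, q, hq, r, hr, hpq, hpr, hqr, ?_⟩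
      have h1 := triArea_le_one p q r (hsq p hp) (hsq q hq) (hsq r hr)
      have h2 : (1 : ℝ) ≤ 2048 / (n : ℝ) ^ 3 := by
        rw [le_div_iff₀ hn3pos, one_mul]
        have h11 : (n : ℝ) ≤ 11 := by exact_mod_cast hsmall
        calc (n : ℝ) ^ 3 ≤ 11 ^ 3 := pow_le_pow_left₀ hnpos.le h11 3
          _ ≤ 2048 := by norm_num
      linarith
    · obtain ⟨M, q, hM, hqP, hlex, hturn⟩ := exists_chain P (by omega) hconv hnc
      have hM4 : 4 ≤ M := by omega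
      obtain ⟨i, hi, harea⟩ := chain_area M hM4 q (fun i hi => hsq _ (hqP i hi)) hlex hturn
      have h12 := hlex i (by omega)
      have h23 := hlex (i + 1) (by omega)
      refine ⟨q i, hqP i (by omega), q (i + 1), hqP _ (by omega), q (i + 2), hqP _ hi,
        lexLt_ne h12, lexLt_ne (lexLt_trans h12 h23), lexLt_ne h23, harea.trans ?_⟩
      have hMn : (n : ℝ) ≤ 2 * M := by
        rw [← hcard]
        exact_mod_cast hM
      have hn12 : (12 : ℝ) ≤ n := by exact_mod_cast (by omega : 12 ≤ n)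
      have hM3 : (n : ℝ) / 4 ≤ (M : ℝ) - 3 := by linarith
      have hpos : (0 : ℝ) < (n : ℝ) / 4 := by linarith
      have hcube : ((n : ℝ) / 4) ^ 3 ≤ ((M : ℝ) - 3) ^ 3 := pow_le_pow_left₀ hpos.le hM3 3
      have hMpos : (0 : ℝ) < ((M : ℝ) - 3) ^ 3 := pow_pos (by linarith) 3
      rw [div_le_div_iff₀ hMpos hn3pos]
      have h64 : ((n : ℝ) / 4) ^ 3 = (n : ℝ) ^ 3 / 64 := by ring
      rw [h64] at hcube
      linarith
  · have hnc' : ∃ p ∈ P, ∃ q ∈ P, ∃ r ∈ P, p ≠ q ∧ p ≠ r ∧ q ≠ r ∧ det2 (q - p) (r - p) = 0 := by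
      by_contra hcon
      apply hnc
      intro p hp q hq r hr hpq hpr hqr hdet
      exact hcon ⟨p, hp, q, hq, r, hr, hpq, hpr, hqr, hdet⟩
    obtain ⟨p, hp, q, hq, r, hr, hpq, hpr, hqr, hdet⟩ := hnc'
    refine ⟨p, hp, q, hq, r, hr, hpq, hpr, hqr, ?_⟩
    rw [triArea_eq_det2', hdet, abs_zero, zero_div]
    exact div_nonneg (by norm_num) hn3pos.le

end Vale.Agent.H51.Heil
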