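import Mathlib
import Vale.Agent.H51.Heil.Defs
import Vale.Agent.H51.Heil.Basic

/-!
# P036, convex position: the matching example

The `n` points `(i / n, (i / n) ^ 2)`, `i < n`, lie on a parabola inside the unit square.
`Area((s, s^2), (t, t^2), (u, u^2)) = |(t - s) (u - s) (u - t)| / 2`, and for distinct indices the
three differences are nonzero integer multiples of `1 / n`, not all of absolute value `1 / n`, so
the area is at least `1 / n ^ 3`.  A finite set of points of the parabola is in convex position: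
the affine function `y - 2 t x + t ^ 2` vanishes at `(t, t ^ 2)` and equals `(s - t) ^ 2 > 0` at
every other point `(s, s ^ 2)`.
-/

namespace Vale.Agent.H51.Heil

theorem hl10_area (s t u : ℝ) :
    triArea (s, s ^ 2) (t, t ^ 2) (u, u ^ 2) = |(t - s) * (u - s) * (u - t)| / 2 := by
  unfold triArea
  have h : (t - s) * (u ^ 2 - s ^ 2) - (t ^ 2 - s ^ 2) * (u - s) = (t - s) * (u - s) * (u - t) := by
    ring
  rw [h]

theorem hl10_int (x y : ℤ) (hx : x ≠ 0) (hy : y ≠ 0) (hxy : x + y ≠ 0) :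
    2 ≤ |x * y * (x + y)| := by
  rw [abs_mul, abs_mul]
  have h1 : 1 ≤ |x| := Int.one_le_abs hx
  have h2 : 1 ≤ |y| := Int.one_le_abs hy
  have h3 : 1 ≤ |x + y| := Int.one_le_abs hxy
  by_cases c1 : 2 ≤ |x|
  · have := mul_le_mul (mul_le_mul c1 h2 (by norm_num) (abs_nonneg x)) h3 (by norm_num)
      (mul_nonneg (abs_nonneg x) (abs_nonneg y))
    linarith
  by_cases c2 : 2 ≤ |y|
  · have := mul_le_mul (mul_le_mul h1 c2 (by norm_num) (abs_nonneg x)) h3 (by norm_num)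
      (mul_nonneg (abs_nonneg x) (abs_nonneg y))
    linarith
  by_cases c3 : 2 ≤ |x + y|
  · have := mul_le_mul (mul_le_mul h1 h2 (by norm_num) (abs_nonneg x)) c3 (by norm_num)
      (mul_nonneg (abs_nonneg x) (abs_nonneg y))
    linarith
  exfalso
  have d1 := abs_lt.mp (not_le.mp c1)
  have d2 := abs_lt.mp (not_le.mp c2)
  have d3 := abs_lt.mp (not_le.mp c3)
  omega

theorem hl10_area_ge (n : ℕ) (hn : 1 ≤ n) (i j k : ℕ) (hij : i ≠ j) (hik : i ≠ k) (hjk : j ≠ k) :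
    1 / (n : ℝ) ^ 3 ≤ triArea ((i : ℝ) / n, ((i : ℝ) / n) ^ 2) ((j : ℝ) / n, ((j : ℝ) / n) ^ 2)
      ((k : ℝ) / n, ((k : ℝ) / n) ^ 2) := by
  have hnpos : (0 : ℝ) < n := by exact_mod_cast hn
  have hn3 : (0 : ℝ) < (n : ℝ) ^ 3 := pow_pos hnpos 3
  rw [hl10_area]
  have hx : ((j : ℤ) - i) ≠ 0 := by omega
  have hy : ((k : ℤ) - j) ≠ 0 := by omega
  have hxy : ((j : ℤ) - i) + ((k : ℤ) - j) ≠ 0 := by omega
  have h := hl10_int _ _ hx hy hxy
  have h' : (2 : ℝ) ≤ |(((((j : ℤ) - i) * ((k : ℤ) - j) * (((j : ℤ) - i) + ((k : ℤ) - j)) : ℤ)) : ℝ)| := by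
    rw [← Int.cast_abs]
    exact_mod_cast h
  push_cast at h'
  have e : ((j : ℝ) / n - (i : ℝ) / n) * ((k : ℝ) / n - (i : ℝ) / n) * ((k : ℝ) / n - (j : ℝ) / n)
      = (((j : ℝ) - i) * ((k : ℝ) - j) * ((j : ℝ) - i + ((k : ℝ) - j))) / (n : ℝ) ^ 3 := by
    field_simp
    ring
  rw [e, abs_div, abs_of_pos hn3]
  rw [div_div, div_le_div_iff₀ hn3 (by positivity)]
  nlinarith

theorem hl10_convex (t : ℝ) : Convex ℝ {x : ℝ × ℝ | 0 < x.2 - 2 * t * x.1 + t ^ 2} := by
  intro x hx y hy a b ha hb hab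
  simp only [Set.mem_ofPred_eq, Prod.fst_add, Prod.snd_add, Prod.smul_fst, Prod.smul_snd,
    smul_eq_mul] at hx hy ⊢
  have hb' : b = 1 - a := by linarith
  subst hb'
  rcases ha.eq_or_lt with h0 | h0
  · subst h0
    simp only [zero_mul, zero_add, sub_zero, one_mul]
    exact hy
  · have h1 := mul_pos h0 hx
    have h2 := mul_nonneg hb hy.le
    nlinarith

/-- Finitely many points of the parabola `y = x ^ 2` are in convex position. -/
theorem hl10_not_mem (P : Finset (ℝ × ℝ)) (hP : ∀ p ∈ P, ∃ s : ℝ, p = (s, s ^ 2)) (t : ℝ) :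
    ((t, t ^ 2) : ℝ × ℝ) ∉ convexHull ℝ (↑(P.erase (t, t ^ 2)) : Set (ℝ × ℝ)) := by
  intro hmem
  have hsub : (↑(P.erase (t, t ^ 2)) : Set (ℝ × ℝ)) ⊆ {x : ℝ × ℝ | 0 < x.2 - 2 * t * x.1 + t ^ 2} := by
    intro x hx
    rw [Finset.mem_coe, Finset.mem_erase] at hx
    obtain ⟨hne, hxP⟩ := hx
    obtain ⟨s, rfl⟩ := hP x hxP
    have hst : s ≠ t := by
      intro h
      apply hne
      rw [h]
    simp only [Set.mem_ofPred_eq]
    have : 0 < (s - t) ^ 2 := by
      have := sub_ne_zero.mpr hst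
      positivity
    nlinarith
  have h := convexHull_min hsub (hl10_convex t) hmem
  simp only [Set.mem_ofPred_eq] at h
  nlinarith

/-- Part (ii): for `n ≥ 1` there are `n` points of the unit square in convex position all of
whose triangles have area at least `1 / n ^ 3`. -/
theorem parabola_example (n : ℕ) (hn : 1 ≤ n) :
    ∃ P : Finset (ℝ × ℝ), P.card = n ∧ (∀ p ∈ P, InSq p) ∧
      (∀ p ∈ P, p ∉ convexHull ℝ (↑(P.erase p) : Set (ℝ × ℝ))) ∧
      ∀ p ∈ P, ∀ q ∈ P, ∀ r ∈ P, p ≠ q → p ≠ r → q ≠ r → 1 / (n : ℝ) ^ 3 ≤ triArea p q r := by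
  classical
  have hnpos : (0 : ℝ) < n := by exact_mod_cast hn
  obtain ⟨g, hg⟩ : ∃ g : ℕ → ℝ × ℝ, ∀ i, g i = ((i : ℝ) / n, ((i : ℝ) / n) ^ 2) :=
    ⟨_, fun _ => rfl⟩
  have hinj : Function.Injective g := by
    intro i j hij
    rw [hg, hg] at hij
    have h1 : (i : ℝ) / n = (j : ℝ) / n := congrArg Prod.fst hij
    have h2 : (i : ℝ) = j := by
      field_simp at h1
      exact h1
    exact_mod_cast h2
  have hPform : ∀ p ∈ (Finset.range n).image g, ∃ s : ℝ, p = (s, s ^ 2) := by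
    intro p hp
    obtain ⟨i, -, rfl⟩ := Finset.mem_image.mp hp
    exact ⟨(i : ℝ) / n, hg i⟩
  refine ⟨(Finset.range n).image g, ?_, ?_, ?_, ?_⟩
  · rw [Finset.card_image_of_injective _ hinj, Finset.card_range]
  · intro p hp
    obtain ⟨i, hi, rfl⟩ := Finset.mem_image.mp hp
    have hin : i < n := Finset.mem_range.mp hi
    have hi' : (i : ℝ) < n := by exact_mod_cast hin
    have h0 : (0 : ℝ) ≤ (i : ℝ) / n := by positivity
    have h1 : (i : ℝ) / n ≤ 1 := by
      rw [div_le_one hnpos]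
      exact hi'.le
    rw [hg]
    refine ⟨h0, h1, by positivity, ?_⟩
    exact pow_le_one₀ h0 h1
  · intro p hp
    obtain ⟨s, rfl⟩ := hPform p hp
    exact hl10_not_mem _ hPform s
  · intro p hp q hq r hr hpq hpr hqr
    obtain ⟨i, -, rfl⟩ := Finset.mem_image.mp hp
    obtain ⟨j, -, rfl⟩ := Finset.mem_image.mp hq
    obtain ⟨k, -, rfl⟩ := Finset.mem_image.mp hr
    have hij : i ≠ j := fun h => hpq (by rw [h])
    have hik : i ≠ k := fun h => hpr (by rw [h])
    have hjk : j ≠ k := fun h => hqr (by rw [h])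
    rw [hg, hg, hg]
    exact hl10_area_ge n hn i j k hij hik hjk

end Vale.Agent.H51.Heil
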