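import Mathlib
import Vale.Agent.H51.Heil.Defs
import Vale.Agent.H51.Heil.Basic
import Vale.Agent.H51.Heil.Main

/-!
# P036: sets covered by `m` subsets in convex position

If `P` (with `n ≥ 3 m` points, in the unit square) is covered by `m` subsets `Q t`, `t : Fin m`, each
in convex position, then one of them has `k ≥ n / m ≥ 3` points and `convex_position_bound` gives
a triangle of area at most `2048 / k ^ 3 ≤ 2048 m ^ 3 / n ^ 3`.
-/

namespace Vale.Agent.H51.Heil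

theorem exists_large_part (m : ℕ) (hm : 0 < m) (Q : Fin m → Finset (ℝ × ℝ))
    (P : Finset (ℝ × ℝ)) (hcov : ∀ p ∈ P, ∃ t, p ∈ Q t) :
    ∃ t, P.card ≤ m * (Q t).card := by
  classical
  by_contra hcon
  have hall : ∀ t ∈ (Finset.univ : Finset (Fin m)), m * (Q t).card < P.card := by
    intro t _
    by_contra h
    exact hcon ⟨t, not_lt.mp h⟩
  have hsub : P ⊆ (Finset.univ : Finset (Fin m)).biUnion Q := by
    intro p hp
    obtain ⟨t, hpt⟩ := hcov p hp
    exact Finset.mem_biUnion.mpr ⟨t, Finset.mem_univ t, hpt⟩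
  have h1 : P.card ≤ ∑ t : Fin m, (Q t).card :=
    (Finset.card_le_card hsub).trans Finset.card_biUnion_le
  have hne : (Finset.univ : Finset (Fin m)).Nonempty := ⟨⟨0, hm⟩, Finset.mem_univ _⟩
  have h2 : ∑ t : Fin m, m * (Q t).card < ∑ _t : Fin m, P.card :=
    Finset.sum_lt_sum_of_nonempty hne hall
  rw [Finset.sum_const, Finset.card_univ, Fintype.card_fin, smul_eq_mul,
    ← Finset.mul_sum] at h2
  have h3 : m * P.card ≤ m * ∑ t : Fin m, (Q t).card := Nat.mul_le_mul_left m h1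
  omega

/-- `n ≥ 3 m` points of the unit square covered by `m` subsets in convex position contain three
distinct points spanning a triangle of area at most `2048 m ^ 3 / n ^ 3`. -/
theorem convex_parts_bound (n m : ℕ) (hm : 0 < m) (hn : 3 * m ≤ n) (P : Finset (ℝ × ℝ))
    (hcard : P.card = n) (hsq : ∀ p ∈ P, InSq p) (Q : Fin m → Finset (ℝ × ℝ))
    (hQP : ∀ t, Q t ⊆ P) (hcov : ∀ p ∈ P, ∃ t, p ∈ Q t)
    (hconv : ∀ t, ∀ p ∈ Q t, p ∉ convexHull ℝ (↑((Q t).erase p) : Set (ℝ × ℝ))) :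
    ∃ p ∈ P, ∃ q ∈ P, ∃ r ∈ P, p ≠ q ∧ p ≠ r ∧ q ≠ r ∧
      triArea p q r ≤ 2048 * (m : ℝ) ^ 3 / (n : ℝ) ^ 3 := by
  obtain ⟨t, hle⟩ := exists_large_part m hm Q P hcov
  rw [hcard] at hle
  have hk3 : 3 ≤ (Q t).card := by
    by_contra h
    have h1 : (Q t).card ≤ 2 := by omega
    have h2 : m * (Q t).card ≤ m * 2 := Nat.mul_le_mul_left m h1
    omega
  obtain ⟨p, hp, q, hq, r, hr, hpq, hpr, hqr, harea⟩ :=
    convex_position_bound (Q t).card hk3 (Q t) rfl (fun p hp => hsq p (hQP t hp))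
      (hconv t)
  refine ⟨p, hQP t hp, q, hQP t hq, r, hQP t hr, hpq, hpr, hqr, harea.trans ?_⟩
  have hkpos : (0 : ℝ) < ((Q t).card : ℝ) := by exact_mod_cast (by omega : 0 < (Q t).card)
  have hnpos : (0 : ℝ) < (n : ℝ) := by exact_mod_cast (by omega : 0 < n)
  have hmpos : (0 : ℝ) < (m : ℝ) := by exact_mod_cast hm
  have hle' : (n : ℝ) ≤ (m : ℝ) * ((Q t).card : ℝ) := by exact_mod_cast hle
  have hcube : (n : ℝ) ^ 3 ≤ ((m : ℝ) * ((Q t).card : ℝ)) ^ 3 :=
    pow_le_pow_left₀ hnpos.le hle' 3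
  rw [div_le_div_iff₀ (pow_pos hkpos 3) (pow_pos hnpos 3)]
  rw [mul_pow] at hcube
  nlinarith

end Vale.Agent.H51.Heil
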