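import Mathlib
import Vale.Agent.H51.Heil.Area
import Vale.Agent.H51.Heil.Defs
import Vale.Agent.H51.Heil.Basic
import Vale.Agent.H51.Heil.Main
import Vale.Agent.H51.Heil.Parabola
import Vale.Agent.H51.Heil.Parts

/-!
# P036: Heilbronn-type bounds for point sets in convex position

The final statement: for every `n ≥ 3`, the bound `2048 / n ^ 3` for `n` points of the unit square
in convex position, an example with all triangles of area at least `1 / n ^ 3`, and the bound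
`2048 m ^ 3 / n ^ 3` for sets covered by `m` subsets in convex position.
-/

namespace Vale.Agent.H51.Heil

theorem final_statement (n : ℕ) (hn : 3 ≤ n) :
    (∀ P : Finset (ℝ × ℝ), P.card = n →
      (∀ p ∈ P, 0 ≤ p.1 ∧ p.1 ≤ 1 ∧ 0 ≤ p.2 ∧ p.2 ≤ 1) →
      (∀ p ∈ P, p ∉ convexHull ℝ (↑(P.erase p) : Set (ℝ × ℝ))) →
      ∃ a ∈ P, ∃ b ∈ P, ∃ c ∈ P, a ≠ b ∧ a ≠ c ∧ b ≠ c ∧
        triArea a b c ≤ 2048 / (n : ℝ) ^ 3) ∧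
    (∃ P : Finset (ℝ × ℝ), P.card = n ∧
      (∀ p ∈ P, 0 ≤ p.1 ∧ p.1 ≤ 1 ∧ 0 ≤ p.2 ∧ p.2 ≤ 1) ∧
      (∀ p ∈ P, p ∉ convexHull ℝ (↑(P.erase p) : Set (ℝ × ℝ))) ∧
      ∀ a ∈ P, ∀ b ∈ P, ∀ c ∈ P, a ≠ b → a ≠ c → b ≠ c →
        1 / (n : ℝ) ^ 3 ≤ triArea a b c) ∧
    (∀ (P : Finset (ℝ × ℝ)) (m : ℕ) (Q : Fin m → Finset (ℝ × ℝ)), P.card = n → 0 < m →
      3 * m ≤ n → (∀ p ∈ P, 0 ≤ p.1 ∧ p.1 ≤ 1 ∧ 0 ≤ p.2 ∧ p.2 ≤ 1) →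
      (∀ t, Q t ⊆ P) → (∀ p ∈ P, ∃ t, p ∈ Q t) →
      (∀ t, ∀ p ∈ Q t, p ∉ convexHull ℝ (↑((Q t).erase p) : Set (ℝ × ℝ))) →
      ∃ a ∈ P, ∃ b ∈ P, ∃ c ∈ P, a ≠ b ∧ a ≠ c ∧ b ≠ c ∧
        triArea a b c ≤ 2048 * (m : ℝ) ^ 3 / (n : ℝ) ^ 3) := by
  refine ⟨?_, ?_, ?_⟩
  · intro P hcard hsq hconv
    exact convex_position_bound n hn P hcard hsq hconv
  · exact parabola_example n (by omega)
  · intro P m Q hcard hm hmn hsq hQP hcov hconv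
    exact convex_parts_bound n m hm hmn P hcard hsq Q hQP hcov hconv

end Vale.Agent.H51.Heil
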