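import Mathlib
import Vale.Agent.H68.P036.Final
import Vale.Agent.H51.Heil.Final

/-!
# P036: the two families of Heilbronn-type bounds in one statement

Conjunction of `Vale.Agent.H68.P036.final_statement` (short paths, monotone covers) and of
`Vale.Agent.H51.Heil.final_statement` (convex position), with the single area function
`Vale.Agent.H68.P036.triArea`; it equals the `triArea` of this folder (`triArea_bridge`).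
-/

namespace Vale.Agent.H51.Heil

theorem triArea_bridge (a b c : ℝ × ℝ) :
    Vale.Agent.H68.P036.triArea a b c = triArea a b c := by
  unfold Vale.Agent.H68.P036.triArea triArea
  ring

theorem combined_statement :
    (∀ (P : Finset (ℝ × ℝ)) (n : ℕ) (p : ℕ → ℝ × ℝ), 3 ≤ n → (∀ i < n, p i ∈ P) →
      (∀ i < n, ∀ j < n, p i = p j → i = j) →
      ∃ a ∈ P, ∃ b ∈ P, ∃ c ∈ P, a ≠ b ∧ b ≠ c ∧ a ≠ c ∧
        Vale.Agent.H68.P036.triArea a b c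
          ≤ (∑ j ∈ Finset.range (n - 1), Vale.Agent.H68.P036.eDist (p j) (p (j + 1))) ^ 2
            / (2 * ((n : ℝ) - 2) ^ 2)) ∧
    (∀ (P : Finset (ℝ × ℝ)) (n m : ℕ) (Q : Fin m → Finset (ℝ × ℝ)), P.card = n → 0 < m →
      3 * m ≤ n → (∀ q ∈ P, 0 ≤ q.1 ∧ q.1 ≤ 1 ∧ 0 ≤ q.2 ∧ q.2 ≤ 1) →
      (∀ t, Q t ⊆ P) → (∀ q ∈ P, ∃ t, q ∈ Q t) →
      (∀ t, Vale.Agent.H68.P036.MonoSet (Q t)) →
      ∃ a ∈ P, ∃ b ∈ P, ∃ c ∈ P, a ≠ b ∧ b ≠ c ∧ a ≠ c ∧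
        Vale.Agent.H68.P036.triArea a b c ≤ 2 * (m : ℝ) ^ 2 / ((n : ℝ) - 2 * (m : ℝ)) ^ 2) ∧
    (∀ n : ℕ, 3 ≤ n →
      (∀ P : Finset (ℝ × ℝ), P.card = n →
        (∀ q ∈ P, 0 ≤ q.1 ∧ q.1 ≤ 1 ∧ 0 ≤ q.2 ∧ q.2 ≤ 1) →
        (∀ q ∈ P, q ∉ convexHull ℝ (↑(P.erase q) : Set (ℝ × ℝ))) →
        ∃ a ∈ P, ∃ b ∈ P, ∃ c ∈ P, a ≠ b ∧ b ≠ c ∧ a ≠ c ∧
          Vale.Agent.H68.P036.triArea a b c ≤ 2048 / (n : ℝ) ^ 3) ∧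
      (∃ P : Finset (ℝ × ℝ), P.card = n ∧
        (∀ q ∈ P, 0 ≤ q.1 ∧ q.1 ≤ 1 ∧ 0 ≤ q.2 ∧ q.2 ≤ 1) ∧
        (∀ q ∈ P, q ∉ convexHull ℝ (↑(P.erase q) : Set (ℝ × ℝ))) ∧
        ∀ a ∈ P, ∀ b ∈ P, ∀ c ∈ P, a ≠ b → b ≠ c → a ≠ c →
          1 / (n : ℝ) ^ 3 ≤ Vale.Agent.H68.P036.triArea a b c) ∧
      (∀ (P : Finset (ℝ × ℝ)) (m : ℕ) (Q : Fin m → Finset (ℝ × ℝ)), P.card = n → 0 < m →
        3 * m ≤ n → (∀ q ∈ P, 0 ≤ q.1 ∧ q.1 ≤ 1 ∧ 0 ≤ q.2 ∧ q.2 ≤ 1) →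
        (∀ t, Q t ⊆ P) → (∀ q ∈ P, ∃ t, q ∈ Q t) →
        (∀ t, ∀ q ∈ Q t, q ∉ convexHull ℝ (↑((Q t).erase q) : Set (ℝ × ℝ))) →
        ∃ a ∈ P, ∃ b ∈ P, ∃ c ∈ P, a ≠ b ∧ b ≠ c ∧ a ≠ c ∧
          Vale.Agent.H68.P036.triArea a b c ≤ 2048 * (m : ℝ) ^ 3 / (n : ℝ) ^ 3)) := by
  refine ⟨Vale.Agent.H68.P036.final_statement.1, Vale.Agent.H68.P036.final_statement.2, ?_⟩
  intro n hn
  obtain ⟨h1, h2, h3⟩ := final_statement n hn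
  refine ⟨?_, ?_, ?_⟩
  · intro P hcard hsq hconv
    obtain ⟨a, ha, b, hb, c, hc, hab, hac, hbc, h⟩ := h1 P hcard hsq hconv
    exact ⟨a, ha, b, hb, c, hc, hab, hbc, hac, by rw [triArea_bridge]; exact h⟩
  · obtain ⟨P, hcard, hsq, hconv, harea⟩ := h2
    refine ⟨P, hcard, hsq, hconv, ?_⟩
    intro a ha b hb c hc hab hbc hac
    rw [triArea_bridge]
    exact harea a ha b hb c hc hab hac hbc
  · intro P m Q hcard hm hmn hsq hQP hcov hconv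
    obtain ⟨a, ha, b, hb, c, hc, hab, hac, hbc, h⟩ := h3 P m Q hcard hm hmn hsq hQP hcov hconv
    exact ⟨a, ha, b, hb, c, hc, hab, hbc, hac, by rw [triArea_bridge]; exact h⟩

end Vale.Agent.H51.Heil
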